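import Vale.Agent.P358.Key

namespace Vale.Agent.Results.P358.CapacityFull

open Matrix
open scoped Matrix
open Vale.Agent.P358

/-- For every pair of parameters the classical capacity of the generalized amplitude-damping
channel equals its Holevo capacity, given by the one-parameter formula; the Holevo capacity is
additive for every number of uses. -/
theorem result (γ ν : ℝ) (hγ0 : 0 ≤ γ) (hγ1 : γ ≤ 1) (hν0 : 0 ≤ ν) (hν1 : ν ≤ 1) :
    (∀ (q : ℝ) (z : ℂ), gadc γ ν !![1 - (q : ℂ), z; starRingEnd ℂ z, (q : ℂ)]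
      = !![1 - (((1 - γ) * q + γ * ν : ℝ) : ℂ), ((Real.sqrt (1 - γ) : ℝ) : ℂ) * z;
          ((Real.sqrt (1 - γ) : ℝ) : ℂ) * starRingEnd ℂ z,
          (((1 - γ) * q + γ * ν : ℝ) : ℂ)]) ∧
    (∀ (n : ℕ) (M : Fin n → Matrix (Fin 2) (Fin 2) ℂ),
      gadcPow γ ν n (tensorMat M) = tensorMat fun i => gadc γ ν (M i)) ∧
    ∃ q ∈ Set.Icc (0 : ℝ) 1,
      (∀ p ∈ Set.Icc (0 : ℝ) 1,
        h2 ((1 - γ) * p + γ * ν)
            - h2 ((1 + Real.sqrt (1 - 4 * (((1 - γ) * p + γ * ν) * (1 - ((1 - γ) * p + γ * ν))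
              - (1 - γ) * (p * (1 - p))))) / 2)
          ≤ h2 ((1 - γ) * q + γ * ν)
            - h2 ((1 + Real.sqrt (1 - 4 * (((1 - γ) * q + γ * ν) * (1 - ((1 - γ) * q + γ * ν))
              - (1 - γ) * (q * (1 - q))))) / 2)) ∧
      (∀ n : ℕ, IsGreatest (holevoValues γ ν n) ((n : ℝ) *
        (h2 ((1 - γ) * q + γ * ν)
            - h2 ((1 + Real.sqrt (1 - 4 * (((1 - γ) * q + γ * ν) * (1 - ((1 - γ) * q + γ * ν))
              - (1 - γ) * (q * (1 - q))))) / 2)))) ∧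
      (∀ n : ℕ, holevoCap γ ν n = n * holevoCap γ ν 1) ∧
      holevoCap γ ν 1
        = h2 ((1 - γ) * q + γ * ν)
            - h2 ((1 + Real.sqrt (1 - 4 * (((1 - γ) * q + γ * ν) * (1 - ((1 - γ) * q + γ * ν))
              - (1 - γ) * (q * (1 - q))))) / 2) ∧
      classicalCapacity γ ν = holevoCap γ ν 1 := by
  have hcap : ∀ p : ℝ, capFun γ ν p / Real.log 2
      = h2 ((1 - γ) * p + γ * ν)
            - h2 ((1 + Real.sqrt (1 - 4 * (((1 - γ) * p + γ * ν) * (1 - ((1 - γ) * p + γ * ν))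
              - (1 - γ) * (p * (1 - p))))) / 2) := fun p => by
    rw [capFun, gOut, outDet, h2, h2, sub_div, tOut]
  refine ⟨fun q z => ?_, fun n M => gadcPow_tensor n M, ?_⟩
  · exact gadc_apply hγ0 hγ1 hν0 hν1 q z
  obtain ⟨q, hq, hmax, hg, hn, h1, hC⟩ := gadc_additivity hγ0 hγ1 hν0 hν1
  refine ⟨q, hq, fun p hp => ?_, fun n => ?_, hn, ?_, hC⟩
  · rw [← hcap, ← hcap]
    exact div_le_div_of_nonneg_right (hmax hp) (Real.log_nonneg one_le_two)
  · rw [← hcap]; exact hg n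
  · rw [← hcap]; exact h1

end Vale.Agent.Results.P358.CapacityFull
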